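import Mathlib

/-!
Blocks for square-difference-free sets.  `Good M c w`: there are `c` residues modulo
`M ^ 2` with a rank in `[0, w]` such that whenever `y - x` is a square modulo `M ^ 2`,
either `x = y` or the rank of `y` exceeds that of `x`.
-/

namespace Vale.Agent.P042.Blocks

/-- `y - x` is a square modulo `N`. -/
def Hit (N x y : ℕ) : Prop := ∃ z : ℤ, (N : ℤ) ∣ (y : ℤ) - x - z ^ 2

/-- An ordered block modulo `M ^ 2` with `c` points and ranks at most `w`. -/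
def Good (M c w : ℕ) : Prop :=
  0 < M ∧ ∃ (S : Finset ℕ) (φ : ℕ → ℕ),
    S.card = c ∧ (∀ x ∈ S, x < M ^ 2) ∧ (∀ x ∈ S, φ x ≤ w) ∧
    ∀ x ∈ S, ∀ y ∈ S, Hit (M ^ 2) x y → x = y ∨ φ x < φ y

lemma good_one : Good 1 1 0 := by
  refine ⟨one_pos, {0}, fun _ => 0, ?_, ?_, ?_, ?_⟩
  · simp
  · simp
  · simp
  · intro x hx y hy _
    simp only [Finset.mem_singleton] at hx hy
    exact Or.inl (hx.trans hy.symm)

lemma hit_low {A B s t s' t' : ℕ} {z : ℤ}
    (h : ((A * B : ℕ) : ℤ) ∣ ((s' + A * t' : ℕ) : ℤ) - ((s + A * t : ℕ) : ℤ) - z ^ 2) :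
    (A : ℤ) ∣ (s' : ℤ) - s - z ^ 2 := by
  have h1 : (A : ℤ) ∣ ((s' + A * t' : ℕ) : ℤ) - ((s + A * t : ℕ) : ℤ) - z ^ 2 := by
    refine dvd_trans ?_ h
    push_cast
    exact dvd_mul_right _ _
  obtain ⟨q, hq⟩ := h1
  refine ⟨q - t' + t, ?_⟩
  push_cast at hq
  linarith

/-- Lexicographic composition: first block in the low digit. -/
lemma Good.lex {M c w M' c' w' : ℕ} (h : Good M c w) (h' : Good M' c' w') :
    Good (M * M') (c * c') (w * (w' + 1) + w') := by
  obtain ⟨hM, S, φ, hc, hlt, hle, hup⟩ := h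
  obtain ⟨hM', S', φ', hc', hlt', hle', hup'⟩ := h'
  refine ⟨Nat.mul_pos hM hM',
    (S ×ˢ S').image (fun q => q.1 + M ^ 2 * q.2),
    fun x => φ (x % M ^ 2) * (w' + 1) + φ' (x / M ^ 2), ?_, ?_, ?_, ?_⟩
  · rw [Finset.card_image_of_injOn, Finset.card_product, hc, hc']
    intro a ha b hb hab
    simp only [Finset.mem_coe, Finset.mem_product] at ha hb
    have h1 : a.1 = b.1 := by
      have := congrArg (· % M ^ 2) hab
      simpa [Nat.add_mul_mod_self_left, Nat.mod_eq_of_lt (hlt _ ha.1),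
        Nat.mod_eq_of_lt (hlt _ hb.1)] using this
    refine Prod.ext h1 ?_
    simp only at hab
    rw [h1] at hab
    exact Nat.eq_of_mul_eq_mul_left (pow_pos hM 2) (by omega)
  · intro x hx
    simp only [Finset.mem_image, Finset.mem_product] at hx
    obtain ⟨q, ⟨hq1, hq2⟩, rfl⟩ := hx
    have h1 := hlt _ hq1
    have h2 : q.2 + 1 ≤ M' ^ 2 := hlt' _ hq2
    have h3 : M ^ 2 * (q.2 + 1) ≤ M ^ 2 * M' ^ 2 := Nat.mul_le_mul_left _ h2
    have h4 : (M * M') ^ 2 = M ^ 2 * M' ^ 2 := mul_pow _ _ _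
    rw [Nat.mul_succ] at h3
    omega
  · intro x hx
    simp only [Finset.mem_image, Finset.mem_product] at hx
    obtain ⟨q, ⟨hq1, hq2⟩, rfl⟩ := hx
    have h1 : (q.1 + M ^ 2 * q.2) % M ^ 2 = q.1 := by
      rw [Nat.add_mul_mod_self_left, Nat.mod_eq_of_lt (hlt _ hq1)]
    have h2 : (q.1 + M ^ 2 * q.2) / M ^ 2 = q.2 := by
      rw [Nat.add_mul_div_left _ _ (pow_pos hM 2), Nat.div_eq_of_lt (hlt _ hq1), zero_add]
    simp only [h1, h2]
    exact Nat.add_le_add (Nat.mul_le_mul_right _ (hle _ hq1)) (hle' _ hq2)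
  · intro x hx y hy hxy
    simp only [Finset.mem_image, Finset.mem_product] at hx hy
    obtain ⟨⟨s, t⟩, ⟨hs, ht⟩, rfl⟩ := hx
    obtain ⟨⟨s', t'⟩, ⟨hs', ht'⟩, rfl⟩ := hy
    simp only at hs ht hs' ht' hxy ⊢
    obtain ⟨z, hz⟩ := hxy
    rw [mul_pow] at hz
    have e1 : (s + M ^ 2 * t) % M ^ 2 = s := by
      rw [Nat.add_mul_mod_self_left, Nat.mod_eq_of_lt (hlt _ hs)]
    have e2 : (s + M ^ 2 * t) / M ^ 2 = t := by
      rw [Nat.add_mul_div_left _ _ (pow_pos hM 2), Nat.div_eq_of_lt (hlt _ hs), zero_add]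
    have e1' : (s' + M ^ 2 * t') % M ^ 2 = s' := by
      rw [Nat.add_mul_mod_self_left, Nat.mod_eq_of_lt (hlt _ hs')]
    have e2' : (s' + M ^ 2 * t') / M ^ 2 = t' := by
      rw [Nat.add_mul_div_left _ _ (pow_pos hM 2), Nat.div_eq_of_lt (hlt _ hs'), zero_add]
    rw [e1, e2, e1', e2']
    have hlow : Hit (M ^ 2) s s' := ⟨z, hit_low hz⟩
    rcases hup _ hs _ hs' hlow with heq | hlt2
    · subst heq
      have hl := hit_low hz
      rw [sub_self, zero_sub, dvd_neg] at hl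
      have hl' : ((M : ℤ)) ^ 2 ∣ z ^ 2 := by exact_mod_cast hl
      have hMz : (M : ℤ) ∣ z := (Int.pow_dvd_pow_iff (by norm_num)).mp hl'
      obtain ⟨k, rfl⟩ := hMz
      have hM2 : ((M : ℤ) ^ 2) ≠ 0 := by positivity
      have hhigh : Hit (M' ^ 2) t t' := by
        refine ⟨k, ?_⟩
        apply Int.dvd_of_mul_dvd_mul_left hM2
        obtain ⟨q, hq⟩ := hz
        refine ⟨q, ?_⟩
        push_cast at hq ⊢
        linear_combination hq
      rcases hup' _ ht _ ht' hhigh with e | l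
      · exact Or.inl (by rw [e])
      · exact Or.inr (by omega)
    · refine Or.inr ?_
      have h5 := hle' _ ht
      have h6 : (φ s + 1) * (w' + 1) ≤ φ s' * (w' + 1) := Nat.mul_le_mul_right _ hlt2
      rw [add_mul, one_mul] at h6
      omega

lemma Good.pow {M c w : ℕ} (h : Good M c w) : ∀ j : ℕ,
    Good (M ^ j) (c ^ j) ((w + 1) ^ j - 1)
  | 0 => by simpa using good_one
  | j + 1 => by
      have h1 := h.lex (Good.pow h j)
      have h2 : 1 ≤ (w + 1) ^ j := Nat.one_le_pow _ _ (Nat.succ_pos _)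
      have h3 : w * ((w + 1) ^ j - 1 + 1) + ((w + 1) ^ j - 1) = (w + 1) ^ (j + 1) - 1 := by
        rw [Nat.sub_add_cancel h2, pow_succ, Nat.mul_succ, mul_comm w ((w + 1) ^ j)]
        omega
      rw [h3] at h1
      rwa [pow_succ' M, pow_succ' c]

/-- Product of blocks with coprime moduli. -/
lemma Good.prod {M c w M' c' w' : ℕ} (h : Good M c w) (h' : Good M' c' w')
    (hco : Nat.Coprime M M') : Good (M * M') (c * c') (w + w') := by
  obtain ⟨hM, S, φ, hc, hlt, hle, hup⟩ := h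
  obtain ⟨hM', S', φ', hc', hlt', hle', hup'⟩ := h'
  have hco2 : Nat.Coprime (M ^ 2) (M' ^ 2) := hco.pow 2 2
  let f : ℕ × ℕ → ℕ := fun q => (Nat.chineseRemainder hco2 q.1 q.2 : ℕ)
  have f1 : ∀ q : ℕ × ℕ, q.1 ∈ S → f q % M ^ 2 = q.1 := by
    intro q hq
    have := (Nat.chineseRemainder hco2 q.1 q.2).2.1
    rw [Nat.ModEq, Nat.mod_eq_of_lt (hlt _ hq)] at this
    exact this
  have f2 : ∀ q : ℕ × ℕ, q.2 ∈ S' → f q % M' ^ 2 = q.2 := by
    intro q hq
    have := (Nat.chineseRemainder hco2 q.1 q.2).2.2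
    rw [Nat.ModEq, Nat.mod_eq_of_lt (hlt' _ hq)] at this
    exact this
  refine ⟨Nat.mul_pos hM hM', (S ×ˢ S').image f,
    fun x => φ (x % M ^ 2) + φ' (x % M' ^ 2), ?_, ?_, ?_, ?_⟩
  · rw [Finset.card_image_of_injOn, Finset.card_product, hc, hc']
    intro a ha b hb hab
    simp only [Finset.mem_coe, Finset.mem_product] at ha hb
    exact Prod.ext (by rw [← f1 a ha.1, ← f1 b hb.1, hab]) (by rw [← f2 a ha.2, ← f2 b hb.2, hab])
  · intro x hx
    simp only [Finset.mem_image] at hx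
    obtain ⟨q, _, rfl⟩ := hx
    rw [mul_pow]
    exact Nat.chineseRemainder_lt_mul hco2 q.1 q.2 (by positivity) (by positivity)
  · intro x hx
    simp only [Finset.mem_image, Finset.mem_product] at hx
    obtain ⟨q, ⟨hq1, hq2⟩, rfl⟩ := hx
    simp only [f1 q hq1, f2 q hq2]
    exact Nat.add_le_add (hle _ hq1) (hle' _ hq2)
  · intro x hx y hy hxy
    simp only [Finset.mem_image, Finset.mem_product] at hx hy
    obtain ⟨a, ⟨ha1, ha2⟩, rfl⟩ := hx
    obtain ⟨b, ⟨hb1, hb2⟩, rfl⟩ := hy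
    simp only [f1 a ha1, f2 a ha2, f1 b hb1, f2 b hb2]
    obtain ⟨z, hz⟩ := hxy
    rw [mul_pow] at hz
    have red : ∀ N : ℕ, (N : ℤ) ∣ ((f b : ℤ) - f a - z ^ 2) →
        Hit N (f a % N) (f b % N) := by
      intro N hN
      refine ⟨z, ?_⟩
      obtain ⟨q, hq⟩ := hN
      refine ⟨q - (f b / N : ℕ) + (f a / N : ℕ), ?_⟩
      have ea : ((f a % N : ℕ) : ℤ) + (N : ℤ) * ((f a / N : ℕ) : ℤ) = (f a : ℤ) := by
        exact_mod_cast Nat.mod_add_div (f a) N
      have eb : ((f b % N : ℕ) : ℤ) + (N : ℤ) * ((f b / N : ℕ) : ℤ) = (f b : ℤ) := by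
        exact_mod_cast Nat.mod_add_div (f b) N
      linear_combination hq + eb - ea
    have h1 : Hit (M ^ 2) a.1 b.1 := by
      have := red (M ^ 2) (dvd_trans (by push_cast; exact dvd_mul_right _ _) hz)
      rwa [f1 a ha1, f1 b hb1] at this
    have h2 : Hit (M' ^ 2) a.2 b.2 := by
      have := red (M' ^ 2) (dvd_trans (by push_cast; exact dvd_mul_left _ _) hz)
      rwa [f2 a ha2, f2 b hb2] at this
    rcases hup _ ha1 _ hb1 h1 with e | l
    · rcases hup' _ ha2 _ hb2 h2 with e' | l'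
      · exact Or.inl (congrArg f (Prod.ext e e'))
      · exact Or.inr (by rw [e]; omega)
    · rcases hup' _ ha2 _ hb2 h2 with e' | l'
      · exact Or.inr (by rw [e']; omega)
      · exact Or.inr (by omega)

/-- The rank attached to a point by a certificate list. -/
def rankOf (L : List (ℕ × ℕ)) (x : ℕ) : ℕ :=
  ((L.find? fun a => a.1 == x).map Prod.snd).getD 0

/-- Certificate of a list of ranked residues modulo `n`. -/
def Cert (n w : ℕ) (L : List (ℕ × ℕ)) : Prop :=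
  0 < n ∧ (L.map Prod.fst).Nodup ∧
    (∀ a ∈ L, a.1 < n ∧ rankOf L a.1 = a.2 ∧ a.2 ≤ w) ∧
    ∀ a ∈ L, ∀ b ∈ L, a.1 = b.1 ∨ a.2 < b.2 ∨
      ∀ z ∈ List.range n, (z * z + a.1) % n ≠ b.1

instance (n w : ℕ) (L : List (ℕ × ℕ)) : Decidable (Cert n w L) := by
  unfold Cert; infer_instance

lemma Cert.rank {n w : ℕ} {L : List (ℕ × ℕ)} (hC : Cert n w L) {x : ℕ}
    (hx : x ∈ (L.map Prod.fst).toFinset) : x < n ∧ rankOf L x ≤ w := by
  simp only [List.mem_toFinset, List.mem_map] at hx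
  obtain ⟨a, ha, rfl⟩ := hx
  obtain ⟨h1, h2, h3⟩ := hC.2.2.1 a ha
  exact ⟨h1, h2.symm ▸ h3⟩

lemma Cert.up {n w : ℕ} {L : List (ℕ × ℕ)} (hC : Cert n w L) {x y : ℕ}
    (hx : x ∈ (L.map Prod.fst).toFinset) (hy : y ∈ (L.map Prod.fst).toFinset)
    (h : Hit n x y) : x = y ∨ rankOf L x < rankOf L y := by
  simp only [List.mem_toFinset, List.mem_map] at hx hy
  obtain ⟨a, ha, rfl⟩ := hx
  obtain ⟨b, hb, rfl⟩ := hy
  rw [(hC.2.2.1 a ha).2.1, (hC.2.2.1 b hb).2.1]
  rcases hC.2.2.2 a ha b hb with e | l | hno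
  · exact Or.inl e
  · exact Or.inr l
  · exfalso
    haveI : NeZero n := ⟨hC.1.ne'⟩
    obtain ⟨z, hz⟩ := h
    refine hno (z : ZMod n).val (List.mem_range.mpr (ZMod.val_lt _)) ?_
    have h0 := (ZMod.intCast_zmod_eq_zero_iff_dvd _ n).mpr hz
    push_cast at h0
    have h1 : (((z : ZMod n).val * (z : ZMod n).val + a.1 : ℕ) : ZMod n) = (b.1 : ZMod n) := by
      push_cast
      rw [ZMod.natCast_val, ZMod.cast_id]
      linear_combination -h0
    have h2 := (ZMod.natCast_eq_natCast_iff' _ _ n).mp h1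
    rwa [Nat.mod_eq_of_lt (hC.2.2.1 b hb).1] at h2

/-- A certified list modulo `M ^ 2` is a block. -/
lemma good_window {M w : ℕ} {L : List (ℕ × ℕ)} (hM : 0 < M) (hC : Cert (M ^ 2) w L) :
    Good M L.length w :=
  ⟨hM, (L.map Prod.fst).toFinset, rankOf L,
    by rw [List.toFinset_card_of_nodup hC.2.1, List.length_map],
    fun _ hx => (hC.rank hx).1, fun _ hx => (hC.rank hx).2,
    fun _ hx _ hy h => hC.up hx hy h⟩

/-- A certified list modulo a number `n` having no nilpotent residue gives a block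
modulo `n ^ 2`, the higher digit being free. -/
lemma good_digit {n w : ℕ} {L : List (ℕ × ℕ)} (hC : Cert n w L)
    (hred : ∀ z ∈ List.range n, z * z % n = 0 → z = 0) :
    Good n (L.length * n) w := by
  refine ⟨hC.1, ((L.map Prod.fst).toFinset ×ˢ Finset.range n).image
    (fun q => q.1 + n * q.2), fun x => rankOf L (x % n), ?_, ?_, ?_, ?_⟩
  · rw [Finset.card_image_of_injOn, Finset.card_product, Finset.card_range,
      List.toFinset_card_of_nodup hC.2.1, List.length_map]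
    intro a ha b hb hab
    simp only [Finset.mem_coe, Finset.mem_product] at ha hb
    have h1 : a.1 = b.1 := by
      have := congrArg (· % n) hab
      simpa [Nat.add_mul_mod_self_left, Nat.mod_eq_of_lt (hC.rank ha.1).1,
        Nat.mod_eq_of_lt (hC.rank hb.1).1] using this
    refine Prod.ext h1 ?_
    simp only at hab
    rw [h1] at hab
    exact Nat.eq_of_mul_eq_mul_left hC.1 (by omega)
  · intro x hx
    simp only [Finset.mem_image, Finset.mem_product, Finset.mem_range] at hx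
    obtain ⟨q, ⟨hq1, hq2⟩, rfl⟩ := hx
    have h1 := (hC.rank hq1).1
    have h3 : n * (q.2 + 1) ≤ n * n := Nat.mul_le_mul_left _ hq2
    have h4 : n ^ 2 = n * n := sq n
    rw [Nat.mul_succ] at h3
    omega
  · intro x hx
    simp only [Finset.mem_image, Finset.mem_product] at hx
    obtain ⟨q, ⟨hq1, _⟩, rfl⟩ := hx
    simp only [Nat.add_mul_mod_self_left, Nat.mod_eq_of_lt (hC.rank hq1).1]
    exact (hC.rank hq1).2
  · intro x hx y hy hxy
    simp only [Finset.mem_image, Finset.mem_product, Finset.mem_range] at hx hy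
    obtain ⟨⟨s, t⟩, ⟨hs, ht⟩, rfl⟩ := hx
    obtain ⟨⟨s', t'⟩, ⟨hs', ht'⟩, rfl⟩ := hy
    simp only at hs ht hs' ht' hxy ⊢
    simp only [Nat.add_mul_mod_self_left, Nat.mod_eq_of_lt (hC.rank hs).1,
      Nat.mod_eq_of_lt (hC.rank hs').1]
    obtain ⟨z, hz⟩ := hxy
    rw [sq] at hz
    rcases hC.up hs hs' ⟨z, hit_low hz⟩ with e | l
    · subst e
      refine Or.inl ?_
      have hl := hit_low hz
      rw [sub_self, zero_sub, dvd_neg] at hl
      haveI : NeZero n := ⟨hC.1.ne'⟩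
      have h0 : (z : ZMod n) = 0 := by
        have h1 := (ZMod.intCast_zmod_eq_zero_iff_dvd _ n).mpr hl
        push_cast at h1
        rw [← ZMod.val_eq_zero]
        apply hred _ (List.mem_range.mpr (ZMod.val_lt _))
        rw [← ZMod.val_mul, ← sq, h1, ZMod.val_zero]
      have hnz : (n : ℤ) ∣ z := (ZMod.intCast_zmod_eq_zero_iff_dvd _ n).mp h0
      obtain ⟨k, rfl⟩ := hnz
      obtain ⟨q, hq⟩ := hz
      push_cast at hq
      have hn0 : (n : ℤ) ≠ 0 := by exact_mod_cast hC.1.ne'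
      have h5 : (t' : ℤ) - t = (n : ℤ) * (q + k ^ 2) :=
        mul_left_cancel₀ hn0 (by linear_combination hq)
      have h7 : t' = t := by
        have h8 : (n : ℤ) ∣ (t' : ℤ) - t := ⟨_, h5⟩
        have h9 : (t : ℕ) ≡ t' [MOD n] := Nat.modEq_iff_dvd.mpr h8
        rw [Nat.ModEq, Nat.mod_eq_of_lt ht, Nat.mod_eq_of_lt ht'] at h9
        exact h9.symm
      rw [h7]
    · exact Or.inr l

end Vale.Agent.P042.Blocks
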