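import Vale.Agent.P042.Blocks.Good

/-!
From a block to sets of integers without square differences.
-/

namespace Vale.Agent.P042.Blocks

/-- Pigeonhole on the rank gives residues without square differences. -/
lemma Good.indep {M c w : ℕ} (h : Good M c w) :
    ∃ A : Finset ℕ, c ≤ A.card * (w + 1) ∧ (∀ a ∈ A, a < M ^ 2) ∧
      ∀ a ∈ A, ∀ b ∈ A, Hit (M ^ 2) a b → a = b := by
  classical
  obtain ⟨hM, S, φ, hc, hlt, hle, hup⟩ := h
  obtain ⟨r, _, hr⟩ := Finset.exists_max_image (Finset.range (w + 1))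
    (fun r => (S.filter fun x => φ x = r).card) ⟨0, by simp⟩
  refine ⟨S.filter fun x => φ x = r, ?_, ?_, ?_⟩
  · rw [← hc, Finset.card_eq_sum_card_fiberwise (f := φ) (t := Finset.range (w + 1))
      (fun x hx => by simp only [Finset.mem_coe, Finset.mem_range]; have := hle x hx; omega)]
    have := Finset.sum_le_card_nsmul (Finset.range (w + 1))
      (fun r' => (S.filter fun x => φ x = r').card) _ hr
    simpa [Finset.card_range, mul_comm] using this
  · exact fun a ha => hlt a (Finset.mem_filter.mp ha).1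
  · intro a ha b hb hab
    simp only [Finset.mem_filter] at ha hb
    rcases hup a ha.1 b hb.1 hab with e | l
    · exact e
    · omega

/-- `k` digits from `A` in base `B`. -/
def digits (A : Finset ℕ) (B : ℕ) : ℕ → Finset ℕ
  | 0 => {0}
  | k + 1 => (A ×ˢ digits A B k).image fun q => q.1 + B * q.2

lemma digits_card {A : Finset ℕ} {B : ℕ} (hB : 0 < B) (hA : ∀ a ∈ A, a < B) :
    ∀ k, (digits A B k).card = A.card ^ k
  | 0 => rfl
  | k + 1 => by
      rw [digits, Finset.card_image_of_injOn, Finset.card_product, digits_card hB hA k, pow_succ']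
      intro a ha b hb hab
      simp only [Finset.mem_coe, Finset.mem_product] at ha hb
      have h1 : a.1 = b.1 := by
        have := congrArg (· % B) hab
        simpa [Nat.add_mul_mod_self_left, Nat.mod_eq_of_lt (hA _ ha.1),
          Nat.mod_eq_of_lt (hA _ hb.1)] using this
      refine Prod.ext h1 ?_
      simp only at hab
      rw [h1] at hab
      exact Nat.eq_of_mul_eq_mul_left hB (by omega)

lemma digits_lt {A : Finset ℕ} {B : ℕ} (hA : ∀ a ∈ A, a < B) :
    ∀ k, ∀ x ∈ digits A B k, x < B ^ k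
  | 0, x, hx => by simp only [digits, Finset.mem_singleton] at hx; simp [hx]
  | k + 1, x, hx => by
      simp only [digits, Finset.mem_image, Finset.mem_product] at hx
      obtain ⟨q, ⟨hq1, hq2⟩, rfl⟩ := hx
      have h2 : q.2 + 1 ≤ B ^ k := digits_lt hA k _ hq2
      have h3 := Nat.mul_le_mul_left B h2
      have h4 := hA _ hq1
      have h5 : B ^ (k + 1) = B * B ^ k := pow_succ' _ _
      rw [Nat.mul_succ] at h3
      omega

lemma digits_free {A : Finset ℕ} {M : ℕ} (hM : 0 < M)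
    (hA : ∀ a ∈ A, ∀ b ∈ A, Hit (M ^ 2) a b → a = b) :
    ∀ k, ∀ x ∈ digits A (M ^ 2) k, ∀ y ∈ digits A (M ^ 2) k, ∀ z : ℤ,
      (y : ℤ) - x = z ^ 2 → x = y
  | 0, x, hx, y, hy, _, _ => by
      simp only [digits, Finset.mem_singleton] at hx hy; rw [hx, hy]
  | k + 1, x, hx, y, hy, z, hz => by
      simp only [digits, Finset.mem_image, Finset.mem_product] at hx hy
      obtain ⟨a, ⟨ha1, ha2⟩, rfl⟩ := hx
      obtain ⟨b, ⟨hb1, hb2⟩, rfl⟩ := hy
      push_cast at hz
      have e : a.1 = b.1 := by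
        refine hA _ ha1 _ hb1 ⟨z, (a.2 : ℤ) - b.2, ?_⟩
        push_cast
        linear_combination hz
      have h1 : (M : ℤ) ^ 2 ∣ z ^ 2 := ⟨(b.2 : ℤ) - a.2, by
        have e' : (a.1 : ℤ) = b.1 := by exact_mod_cast e
        linear_combination - hz - e'⟩
      obtain ⟨w, rfl⟩ := (Int.pow_dvd_pow_iff (by norm_num)).mp h1
      have hM2 : ((M : ℤ) ^ 2) ≠ 0 := by positivity
      have e2 : a.2 = b.2 := by
        refine digits_free hM hA k _ ha2 _ hb2 w (mul_left_cancel₀ hM2 ?_)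
        have e' : (a.1 : ℤ) = b.1 := by exact_mod_cast e
        linear_combination hz + e'
      rw [e, e2]

/-- The exponent statement from one block. -/
lemma squareFree_of_block {M c w : ℕ} (h : Good M c w) (γ : ℝ) (hγ : 0 ≤ γ) (hM : 2 ≤ M)
    (hcount : ∀ a : ℕ, c ≤ a * (w + 1) → ((M ^ 2 : ℕ) : ℝ) ^ γ ≤ a) :
    ∃ c₀ : ℝ, 0 < c₀ ∧ ∀ N : ℕ, 1 ≤ N → ∃ S : Finset ℕ, S ⊆ Finset.Icc 1 N ∧
      (∀ a ∈ S, ∀ b ∈ S, ∀ n : ℕ, 1 ≤ n → (a : ℤ) - b ≠ (n : ℤ) ^ 2) ∧
      c₀ * (N : ℝ) ^ γ ≤ S.card := by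
  classical
  obtain ⟨A, hAc, hAlt, hAind⟩ := h.indep
  generalize hB : M ^ 2 = B at hAlt
  have hB2 : 1 < B := by rw [← hB]; nlinarith
  have hB0 : (0 : ℝ) < B := by exact_mod_cast Nat.lt_trans Nat.zero_lt_one hB2
  have hA : (B : ℝ) ^ γ ≤ A.card := by have := hcount _ hAc; rwa [hB] at this
  refine ⟨1 / (B : ℝ) ^ γ, by positivity, fun N hN => ?_⟩
  generalize hk : Nat.log B N = k
  have hk1 : B ^ k ≤ N := by rw [← hk]; exact Nat.pow_log_le_self B (by omega)
  have hk2 : N < B ^ (k + 1) := by rw [← hk]; exact Nat.lt_pow_succ_log_self hB2 N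
  refine ⟨(digits A B k).image (· + 1), ?_, ?_, ?_⟩
  · intro x hx
    simp only [Finset.mem_image] at hx
    obtain ⟨y, hy, rfl⟩ := hx
    have := digits_lt hAlt k y hy
    simp only [Finset.mem_Icc]
    omega
  · intro a ha b hb n hn hab
    simp only [Finset.mem_image] at ha hb
    obtain ⟨a', ha', rfl⟩ := ha
    obtain ⟨b', hb', rfl⟩ := hb
    push_cast at hab
    have hk' : (a' : ℤ) - b' = (n : ℤ) ^ 2 := by linarith
    subst hB
    have e := digits_free (by omega) hAind k b' hb' a' ha' (n : ℤ) hk'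
    subst e
    rw [sub_self] at hk'
    have hn0 : (n : ℤ) = 0 := by
      have := hk'.symm
      simpa using this
    omega
  · rw [Finset.card_image_of_injective _ (add_left_injective 1),
      digits_card (by omega) hAlt k, Nat.cast_pow, one_div, inv_mul_le_iff₀ (by positivity)]
    calc (N : ℝ) ^ γ ≤ (((B ^ (k + 1) : ℕ) : ℝ)) ^ γ :=
          Real.rpow_le_rpow (by positivity) (by exact_mod_cast hk2.le) hγ
      _ = ((B : ℝ) ^ γ) ^ (k + 1) := by
          rw [Nat.cast_pow, ← Real.rpow_natCast (B : ℝ), ← Real.rpow_mul hB0.le, mul_comm,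
            Real.rpow_mul hB0.le, Real.rpow_natCast]
      _ = (B : ℝ) ^ γ * ((B : ℝ) ^ γ) ^ k := pow_succ' _ _
      _ ≤ (B : ℝ) ^ γ * (A.card : ℝ) ^ k := by gcongr

/-- Exponent from integer inequalities. -/
lemma exponent_of_nat {M c w K e : ℕ} {γ : ℝ} (hM : 0 < M) (hK : 0 < K)
    (hBK : M ^ 2 ≤ 2 ^ K) (hc : 2 ^ e * (w + 1) ^ 4 * (M ^ 2) ^ 3 ≤ c ^ 4)
    (hγ : 4 * γ ≤ 3 + (e : ℝ) / K) (a : ℕ) (ha : c ≤ a * (w + 1)) :
    ((M ^ 2 : ℕ) : ℝ) ^ γ ≤ a := by
  generalize hB : M ^ 2 = B at hBK hc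
  have h1 : 2 ^ e * B ^ 3 ≤ a ^ 4 := by
    have h := hc.trans (Nat.pow_le_pow_left ha 4)
    rw [mul_pow, mul_right_comm] at h
    exact Nat.le_of_mul_le_mul_right h (pow_pos (Nat.succ_pos w) 4)
  have hB1 : 1 ≤ B := by rw [← hB]; exact Nat.one_le_pow _ _ hM
  have hB1' : (1 : ℝ) ≤ B := by exact_mod_cast hB1
  have hB0 : (0 : ℝ) < B := by linarith
  have hKr : (0 : ℝ) < K := by exact_mod_cast hK
  have h2 : ((B : ℝ) ^ γ) ^ 4 ≤ (a : ℝ) ^ 4 := by
    calc ((B : ℝ) ^ γ) ^ 4 = (B : ℝ) ^ (4 * γ) := by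
          rw [← Real.rpow_natCast ((B : ℝ) ^ γ) 4, ← Real.rpow_mul hB0.le, mul_comm]; norm_num
      _ ≤ (B : ℝ) ^ (3 + (e : ℝ) / K) := Real.rpow_le_rpow_of_exponent_le hB1' hγ
      _ = (B : ℝ) ^ ((3 : ℕ) : ℝ) * (B : ℝ) ^ ((e : ℝ) / K) := by
          rw [← Real.rpow_add hB0]; norm_num
      _ ≤ (B : ℝ) ^ (3 : ℕ) * ((2 : ℝ) ^ K) ^ ((e : ℝ) / K) := by
          rw [Real.rpow_natCast]
          refine mul_le_mul_of_nonneg_left (Real.rpow_le_rpow hB0.le ?_ (by positivity))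
            (by positivity)
          exact_mod_cast hBK
      _ = (2 : ℝ) ^ e * (B : ℝ) ^ 3 := by
          rw [← Real.rpow_natCast 2 K, ← Real.rpow_mul (by norm_num), mul_div_cancel₀ _ hKr.ne',
            Real.rpow_natCast]
          ring
      _ ≤ (a : ℝ) ^ 4 := by exact_mod_cast h1
  exact le_of_pow_le_pow_left₀ (by norm_num) (by positivity) h2

end Vale.Agent.P042.Blocks
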