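import Vale.Agent.P042.Blocks.Lift

/-!
The certificate: transitive chains for eleven primes `p ≡ 3 mod 4`, a 2-adic window modulo
16 and a digit block modulo 115, each raised to a suitable power.
-/

namespace Vale.Agent.P042.Blocks

/-- Combination of `(M, c, w + 1, j)` entries: modulus, count, rank bound. -/
def total : List (ℕ × ℕ × ℕ × ℕ) → ℕ × ℕ × ℕ
  | [] => (1, 1, 0)
  | (M, c, v, j) :: rest =>
      (M ^ j * (total rest).1, c ^ j * (total rest).2.1, (v ^ j - 1) + (total rest).2.2)

/-- The powered moduli are pairwise coprime. -/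
def cop : List (ℕ × ℕ × ℕ × ℕ) → Bool
  | [] => true
  | (M, _, _, j) :: rest => Nat.gcd (M ^ j) (total rest).1 == 1 && cop rest

lemma good_total : ∀ l : List (ℕ × ℕ × ℕ × ℕ),
    (∀ q ∈ l, Good q.1 q.2.1 (q.2.2.1 - 1) ∧ 1 ≤ q.2.2.1) → cop l = true →
    Good (total l).1 (total l).2.1 (total l).2.2
  | [], _, _ => good_one
  | (M, c, v, j) :: rest, hg, hc => by
      simp only [cop, Bool.and_eq_true, beq_iff_eq] at hc
      obtain ⟨h1, h2⟩ := hg (M, c, v, j) (List.mem_cons_self ..)
      have h3 := h1.pow j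
      simp only [Nat.sub_add_cancel h2] at h3
      exact h3.prod (good_total rest (fun q hq => hg q (List.mem_cons_of_mem _ hq)) hc.2) hc.1

/-- A list of residues, ranked by position. -/
def chain (l : List ℕ) : List (ℕ × ℕ) := l.zip (List.range l.length)

/-- The blocks used. -/
def parts : List (ℕ × ℕ × ℕ × ℕ) :=
  [(3, 6, 2, 867), (7, 21, 3, 546), (11, 44, 4, 433), (19, 95, 5, 373), (31, 217, 7, 308),
   (43, 301, 7, 308), (47, 329, 7, 307), (59, 531, 9, 273), (71, 639, 9, 272),
   (79, 711, 9, 271), (103, 1133, 11, 250), (115, 1380, 6, 335), (4, 10, 6, 335)]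

/-- Twelve ranked residues modulo 115. -/
def list115 : List (ℕ × ℕ) :=
  [(3, 1), (25, 5), (27, 3), (44, 2), (45, 3), (59, 0), (65, 1), (81, 4), (92, 0), (98, 5),
   (101, 2), (108, 4)]

/-- Ten ranked residues modulo 16. -/
def list16 : List (ℕ × ℕ) :=
  [(2, 0), (4, 2), (5, 5), (7, 0), (8, 3), (10, 0), (11, 1), (12, 4), (13, 5), (15, 2)]

lemma parts_good : ∀ q ∈ parts, Good q.1 q.2.1 (q.2.2.1 - 1) ∧ 1 ≤ q.2.2.1 := by
  simp only [parts, List.forall_mem_cons, List.not_mem_nil, IsEmpty.forall_iff, forall_const,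
    and_true]
  refine ⟨⟨?_, by norm_num⟩, ⟨?_, by norm_num⟩, ⟨?_, by norm_num⟩, ⟨?_, by norm_num⟩,
    ⟨?_, by norm_num⟩, ⟨?_, by norm_num⟩, ⟨?_, by norm_num⟩, ⟨?_, by norm_num⟩,
    ⟨?_, by norm_num⟩, ⟨?_, by norm_num⟩, ⟨?_, by norm_num⟩, ⟨?_, by norm_num⟩,
    ⟨?_, by norm_num⟩⟩
  · exact good_digit (n := 3) (L := chain [0, 1]) (by decide +kernel) (by decide +kernel)
  · exact good_digit (n := 7) (L := chain [1, 5, 2]) (by decide +kernel) (by decide +kernel)
  · exact good_digit (n := 11) (L := chain [1, 5, 6, 10]) (by decide +kernel) (by decide +kernel)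
  · exact good_digit (n := 19) (L := chain [9, 13, 14, 1, 18]) (by decide +kernel)
      (by decide +kernel)
  · exact good_digit (n := 31) (L := chain [16, 18, 1, 26, 20, 3, 5]) (by decide +kernel)
      (by decide +kernel)
  · exact good_digit (n := 43) (L := chain [33, 4, 1, 14, 15, 25, 39]) (by decide +kernel)
      (by decide +kernel)
  · exact good_digit (n := 47) (L := chain [36, 39, 45, 16, 6, 40, 1]) (by decide +kernel)
      (by decide +kernel)
  · exact good_digit (n := 59) (L := chain [39, 15, 16, 44, 42, 2, 5, 31, 51])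
      (by decide +kernel) (by decide +kernel)
  · exact good_digit (n := 71) (L := chain [12, 20, 24, 30, 60, 39, 13, 49, 32])
      (by decide +kernel) (by decide +kernel)
  · exact good_digit (n := 79) (L := chain [45, 21, 67, 30, 53, 76, 39, 6, 61])
      (by decide +kernel) (by decide +kernel)
  · exact good_digit (n := 103) (L := chain [21, 44, 70, 77, 67, 85, 0, 93, 100, 23, 46])
      (by decide +kernel) (by decide +kernel)
  · exact good_digit (n := 115) (L := list115) (by decide +kernel) (by decide +kernel)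
  · exact good_window (M := 4) (L := list16) (by norm_num) (by decide +kernel)

lemma parts_numeric : (cop parts &&
    decide (2 ≤ (total parts).1 ∧ (total parts).1 ^ 2 ≤ 2 ^ 41028 ∧
      2 ^ 100 * ((total parts).2.2 + 1) ^ 4 * ((total parts).1 ^ 2) ^ 3
        ≤ (total parts).2.1 ^ 4)) = true := by
  decide +kernel

/-- Square-difference-free sets of size `N ^ 0.7506`. -/
theorem exists_squareFree_large :
    ∃ c : ℝ, 0 < c ∧ ∀ N : ℕ, 1 ≤ N → ∃ A : Finset ℕ, A ⊆ Finset.Icc 1 N ∧
      (∀ a ∈ A, ∀ b ∈ A, ∀ n : ℕ, 1 ≤ n → (a : ℤ) - b ≠ (n : ℤ) ^ 2) ∧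
      c * (N : ℝ) ^ (3753 / 5000 : ℝ) ≤ A.card := by
  have hn := parts_numeric
  rw [Bool.and_eq_true, decide_eq_true_iff] at hn
  obtain ⟨hcop, h2, hBK, hc⟩ := hn
  exact squareFree_of_block (good_total parts parts_good hcop) _ (by norm_num) h2
    (exponent_of_nat (lt_of_lt_of_le two_pos h2) (by norm_num) hBK hc (by norm_num))

end Vale.Agent.P042.Blocks
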